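import Mathlib

/-! Definitions for the analysis of random greedy matching in a linear 3-uniform hypergraph. -/

open Finset

namespace Vale.Agent.P046

/-- A regular linear 3-uniform hypergraph on the vertex set `A0`. -/
structure HG (α : Type) [DecidableEq α] where
  A0 : Finset α
  TT : Finset (Finset α)
  D : ℕ
  sub : ∀ T ∈ TT, T ⊆ A0
  card3 : ∀ T ∈ TT, T.card = 3
  lin : ∀ T ∈ TT, ∀ T' ∈ TT, T ≠ T' → (T ∩ T').card ≤ 1
  reg : ∀ e ∈ A0, (TT.filter (fun T => e ∈ T)).card = D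

/-- Linear 3-uniform families. -/
structure LinHG {α : Type} [DecidableEq α] (TT : Finset (Finset α)) : Prop where
  card3 : ∀ T ∈ TT, T.card = 3
  lin : ∀ T ∈ TT, ∀ T' ∈ TT, T ≠ T' → (T ∩ T').card ≤ 1

/-- The properties of the Lyapunov function. -/
structure PhiOK (φ φ' c : ℝ → ℝ) (C : ℝ) : Prop where
  C1 : 1 ≤ C
  der : ∀ x, HasDerivAt φ (φ' x) x
  cts : Continuous φ'
  nonneg : ∀ x, 0 ≤ φ x
  le_sq : ∀ x, φ x ≤ C * x ^ 2
  le_abs : ∀ x, φ x ≤ C * |x|
  ge_min : ∀ x, min (x ^ 2) |x| ≤ C * φ x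
  d_abs : ∀ x, |φ' x| ≤ C
  d_sq : ∀ x, φ' x ^ 2 ≤ C * φ x
  c_nonneg : ∀ x, 0 ≤ c x
  c_le : ∀ x, c x ≤ 5 * φ x
  c_mul : ∀ x, (1 + x) * c x ≤ φ x
  tri : ∀ x y z, -(φ' x * (y + z) + φ' y * (x + z) + φ' z * (x + y)) ≤
    (φ x + c x) + (φ y + c y) + (φ z + c z)

/-- The smooth Huber function. -/
noncomputable def psi (x : ℝ) : ℝ := Real.sqrt (1 + x ^ 2) - 1

/-! ### Piecewise deterministic jump systems -/

/-- A jump system: discrete state in `S`, auxiliary continuous state in `R`, moves in `M`. -/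
structure Sys (S R M : Type) where
  moves : Finset M
  mv : M → S → S
  rate : ℝ → ℝ
  drift : ℝ → S → R

section sys
variable {S R M : Type} [NormedAddCommGroup R] [NormedSpace ℝ R]

/-- The generator (time derivative included). -/
noncomputable def Sys.gen (P : Sys S R M) (V : ℝ → S → R → ℝ) (τ : ℝ) (s : S) (r : R) : ℝ :=
  deriv (fun h : ℝ => V (τ + h) s (r + h • P.drift τ s)) 0
    + P.rate τ * ∑ T ∈ P.moves, (V τ (P.mv T s) r - V τ s r)

/-- Jointly `C¹` in time and in the auxiliary state. -/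
def Sm (V : ℝ → S → R → ℝ) : Prop := ∀ s, ContDiff ℝ 1 (fun p : ℝ × R => V p.1 s p.2)

/-- Continuous in the auxiliary state. -/
def Cts (f : S → R → ℝ) : Prop := ∀ s, Continuous (f s)

/-- Expectation functionals of the system started at `(s0, r0)` at time `t0`. -/
structure Ex (P : Sys S R M) (Inv : S → Prop) (t0 t1 : ℝ) (s0 : S) (r0 : R) where
  E : ℝ → (S → R → ℝ) → ℝ
  init : ∀ f, Cts f → E t0 f = f s0 r0
  add : ∀ τ ∈ Set.Icc t0 t1, ∀ f g, Cts f → Cts g →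
    E τ (fun s r => f s r + g s r) = E τ f + E τ g
  smul : ∀ τ ∈ Set.Icc t0 t1, ∀ (c : ℝ) f, Cts f → E τ (fun s r => c * f s r) = c * E τ f
  const : ∀ τ ∈ Set.Icc t0 t1, ∀ c : ℝ, E τ (fun _ _ => c) = c
  mono : ∀ τ ∈ Set.Icc t0 t1, ∀ f g, Cts f → Cts g → (∀ s r, Inv s → f s r ≤ g s r) →
    E τ f ≤ E τ g
  cont : ∀ V, Sm V → ContinuousOn (fun τ => E τ (V τ)) (Set.Icc t0 t1)
  dyn : ∀ V, Sm V → ∀ τ ∈ Set.Ico t0 t1,
    HasDerivWithinAt (fun τ => E τ (V τ)) (E τ (P.gen V τ)) (Set.Ici τ) τ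

end sys

/-! ### The forward hierarchy -/

/-- `p S s` behaves like the probability that `S` is still uncovered at time `s`. -/
structure Fwd {α : Type} [DecidableEq α] (TT : Finset (Finset α)) (A1 : Finset α) (t : ℝ)
    (p : Finset α → ℝ → ℝ) : Prop where
  cont : ∀ S, ContinuousOn (p S) (Set.Icc 0 t)
  der : ∀ S, ∀ s ∈ Set.Ico 0 t, HasDerivWithinAt (p S)
    (-∑ T ∈ TT.filter (fun T => (T ∩ S).Nonempty), p (S ∪ T) s) (Set.Ici s) s
  nonneg : ∀ S, ∀ s ∈ Set.Icc 0 t, 0 ≤ p S s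
  le_one : ∀ S, ∀ s ∈ Set.Icc 0 t, p S s ≤ 1
  anti : ∀ S S', S ⊆ S' → ∀ s ∈ Set.Icc 0 t, p S' s ≤ p S s
  init : ∀ S, S ⊆ A1 → p S 0 = 1

section fwd
variable {α : Type} [DecidableEq α]

/-- Members of `TT` through `e`. -/
def thru (TT : Finset (Finset α)) (e : α) : Finset (Finset α) := TT.filter (fun T => e ∈ T)

noncomputable def WW (TT : Finset (Finset α)) (p : Finset α → ℝ → ℝ) (e : α) (s : ℝ) : ℝ :=
  ∑ T ∈ thru TT e, p T s

noncomputable def massB (A1 : Finset α) (p : Finset α → ℝ → ℝ) (s : ℝ) : ℝ :=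
  ∑ e ∈ A1, p {e} s

noncomputable def xiF (TT : Finset (Finset α)) (p : Finset α → ℝ → ℝ) (s : ℝ) : ℝ :=
  ∑ T ∈ TT, ∑ x ∈ T, p T s ^ 2 / p {x} s

noncomputable def errF (TT : Finset (Finset α)) (A1 : Finset α) (p : Finset α → ℝ → ℝ)
    (s : ℝ) : ℝ :=
  ∑ x ∈ A1, ∑ T ∈ thru TT x, ∑ T' ∈ (thru TT x).erase T,
    |p T s * p T' s / p {x} s - p (T ∪ T') s|

noncomputable def phiHat (φ : ℝ → ℝ) (TT : Finset (Finset α)) (A1 : Finset α)
    (p : Finset α → ℝ → ℝ) (μ s : ℝ) : ℝ :=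
  ∑ e ∈ A1, p {e} s * φ (WW TT p e s / (μ * p {e} s) - 1)

open Classical in
noncomputable def lowF (TT : Finset (Finset α)) (A1 : Finset α)
    (p : Finset α → ℝ → ℝ) (μ s : ℝ) : ℝ :=
  ∑ e ∈ A1.filter (fun e => WW TT p e s < 4 / 5 * μ * p {e} s), p {e} s

/-- One step of neighbourhood growth. -/
def nbhd (TT : Finset (Finset α)) (S : Finset α) : Finset α :=
  S ∪ (TT.filter (fun T => (T ∩ S).Nonempty)).biUnion id

/-- Balls around a set. -/
def ball (TT : Finset (Finset α)) (i : ℕ) (S : Finset α) : Finset α := (nbhd TT)^[i] S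

/-- The vertex set of a family rooted at `x`. -/
def vset (x : α) (F : Finset (Finset α)) : Finset α := insert x (F.biUnion id)

/-- Trees with `k` hyperedges grown from `x`. -/
def trees (TT : Finset (Finset α)) (x : α) : ℕ → Finset (Finset (Finset α))
  | 0 => {∅}
  | k + 1 => (trees TT x k).biUnion (fun F =>
      (TT.filter (fun T => (T ∩ vset x F).card = 1)).image (fun T => insert T F))

/-- Vertex sets of a tree with `k` hyperedges together with one closing hyperedge. -/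
def unic (TT : Finset (Finset α)) (x : α) (k : ℕ) : Finset (Finset α) :=
  (trees TT x k).biUnion (fun F =>
    (TT.filter (fun T => T ∉ F ∧ (T ∩ vset x F).card = 2)).image (fun T => vset x F ∪ T))

/-- No short cycle near `x`. -/
def goodV (TT : Finset (Finset α)) (K : ℕ) (x : α) : Prop := ∀ k < K, unic TT x k = ∅

instance (TT : Finset (Finset α)) (K : ℕ) (x : α) : Decidable (goodV TT K x) := by
  unfold goodV; infer_instance

end fwd

namespace HG
variable {α : Type} [DecidableEq α] (H : HG α)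

/-- Hyperedges inside `A`. -/
def tri (A : Finset α) : Finset (Finset α) := H.TT.filter (fun T => T ⊆ A)

/-- Degree inside `A`. -/
def deg (A : Finset α) (e : α) : ℕ := (thru (H.tri A) e).card

/-- Ghost degree: the vertex itself need not lie in `A`. -/
def gdeg (A : Finset α) (e : α) : ℕ := (H.TT.filter (fun T => e ∈ T ∧ T.erase e ⊆ A)).card

/-- Hyperedges inside `A` all of whose vertices have degree at most `Δ`. -/
def clean (A : Finset α) (Δ : ℕ) : Finset (Finset α) :=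
  (H.tri A).filter (fun T => ∀ x ∈ T, H.deg A x ≤ Δ)

/-- Number of vertices of `A` near a short cycle of the clean part. -/
def nbad (A : Finset α) (Δ K : ℕ) : ℕ := (A.filter (fun x => ¬ goodV (H.clean A Δ) K x)).card

/-- Tail of the second moment of the degrees. -/
noncomputable def tail2 (A : Finset α) (L : ℝ) : ℝ :=
  ∑ e ∈ A.filter (fun e => L < (H.deg A e : ℝ)), (H.deg A e : ℝ) ^ 2

noncomputable def u (a : ℝ) (A : Finset α) (e : α) : ℝ := a * (H.deg A e : ℝ)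

noncomputable def nb (a : ℝ) (A : Finset α) (g : α → ℝ) (e : α) : ℝ :=
  a * ∑ T ∈ thru (H.tri A) e, ∑ f ∈ T.erase e, g f

noncomputable def vel (a : ℝ) (A : Finset α) : α → ℝ :=
  fun e => -H.nb a A (fun f => H.u a A f - 1) e

noncomputable def mm (a : ℝ) (A : Finset α) (r : α → ℝ) (e : α) : ℝ := H.u a A e - 1 - r e

noncomputable def yy (a : ℝ) (A : Finset α) (r : α → ℝ) (e : α) : ℝ := H.nb a A (H.mm a A r) e

/-- Generator of a functional of `(a, A, r)`; along the flow `a' = 2a` and `r' = vel`. -/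
noncomputable def gen (F : ℝ → Finset α → (α → ℝ) → ℝ) (a : ℝ) (A : Finset α) (r : α → ℝ) : ℝ :=
  deriv (fun h : ℝ => F (a * Real.exp (2 * h)) A (r + h • H.vel a A)) 0
    + a * ∑ T ∈ H.tri A, (F a (A \ T) r - F a A r)

noncomputable def UU (a : ℝ) (A : Finset α) : ℝ := ∑ e ∈ A, Real.exp (H.u a A e / 4)

noncomputable def M4 (a : ℝ) (A : Finset α) (r : α → ℝ) : ℝ := ∑ e ∈ A, H.mm a A r e ^ 4

noncomputable def M1 (a : ℝ) (A : Finset α) (r : α → ℝ) : ℝ :=
  ∑ e ∈ A, H.u a A e * H.mm a A r e ^ 4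

noncomputable def Ups (a : ℝ) (A : Finset α) (r : α → ℝ) : ℝ := ∑ e ∈ A, H.yy a A r e ^ 2

noncomputable def X4 (a : ℝ) (A : Finset α) : ℝ := ∑ e ∈ H.A0, (a * (H.gdeg A e : ℝ) - 1) ^ 4

/-- Adjacency inside `A`. -/
def adj (A : Finset α) (x f : α) : Prop := x ≠ f ∧ ∃ T ∈ H.tri A, x ∈ T ∧ f ∈ T

instance (A : Finset α) (x f : α) : Decidable (H.adj A x f) := by unfold adj; infer_instance

open Classical in
/-- The hyperedge through two adjacent vertices. -/
noncomputable def tr (x f : α) : Finset α :=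
  if h : ∃ T ∈ H.TT, x ∈ T ∧ f ∈ T then h.choose else ∅

noncomputable def supp (q : α × α × α × α) : Finset α :=
  H.tr q.1 q.2.1 ∪ H.tr q.2.1 q.2.2.1 ∪ H.tr q.2.2.1 q.2.2.2 ∪ H.tr q.2.2.2 q.1

/-- Proper loose 4-cycles, given by their four junction vertices. -/
noncomputable def quad : Finset (α × α × α × α) :=
  (H.A0 ×ˢ H.A0 ×ˢ H.A0 ×ˢ H.A0).filter (fun q => H.adj H.A0 q.1 q.2.1 ∧ H.adj H.A0 q.2.1 q.2.2.1 ∧
    H.adj H.A0 q.2.2.1 q.2.2.2 ∧ H.adj H.A0 q.2.2.2 q.1 ∧ (H.supp q).card = 8)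

noncomputable def quadIn (A : Finset α) : Finset (α × α × α × α) :=
  H.quad.filter (fun q => H.supp q ⊆ A)

noncomputable def om (a : ℝ) (A : Finset α) : ℝ := a ^ 4 * ((H.quadIn A).card : ℝ)

noncomputable def Zq (a : ℝ) (A : Finset α) : ℝ := a ^ 4 * ∑ q ∈ H.quadIn A, H.u a A q.1

/-- Number of common neighbours inside `A`. -/
def cnb (A : Finset α) (x e : α) : ℕ := (A.filter (fun f => H.adj A x f ∧ H.adj A f e)).card

/-- The spectral property used in the dense phase. -/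
def Gap : Prop := ∀ A ⊆ H.A0, ∀ μ δ : ℝ, 0 ≤ μ → μ ≤ H.D → 0 ≤ δ →
  2 * ∑ e ∈ H.A0, ((H.gdeg A e : ℝ) - μ) ^ 2 + 8 * (H.D : ℝ) ^ 3 ≤ δ ^ 4 →
  ∀ r : α → ℝ, -(4 * δ * ∑ e ∈ A, r e ^ 2) ≤ ∑ T ∈ H.tri A, ∑ e ∈ T, ∑ f ∈ T.erase e, r e * r f

/-! Reference functions of the logarithmic time `τ`. -/

noncomputable def NN : ℝ := (H.A0.card : ℝ)
noncomputable def aa (τ : ℝ) : ℝ := Real.exp (2 * τ) / H.D
noncomputable def gam (τ : ℝ) : ℝ := (H.D : ℝ) ^ (-(1 / 8 : ℝ)) * Real.exp (τ / 4)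
noncomputable def cc (τ : ℝ) : ℝ := Real.exp (-τ) * H.D / H.NN
noncomputable def nrm (τ : ℝ) : ℝ := Real.exp τ / H.NN
noncomputable def gg (β τ : ℝ) : ℝ := β * Real.exp (-τ / 4) + H.gam τ

/-- Generator of a functional of `(τ, A, r)`. -/
noncomputable def genT (V : ℝ → Finset α → (α → ℝ) → ℝ) (τ : ℝ) (A : Finset α) (r : α → ℝ) : ℝ :=
  deriv (fun h : ℝ => V (τ + h) A (r + h • H.vel (H.aa τ) A)) 0
    + H.aa τ * ∑ T ∈ H.tri A, (V τ (A \ T) r - V τ A r)

noncomputable def Vabs (γ2 τ : ℝ) (A : Finset α) : ℝ :=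
  Real.sqrt ((H.nrm τ * (A.card : ℝ) - 1) ^ 2 + γ2 ^ 2)

/-- The master Lyapunov functional. -/
noncomputable def VV (φ : ℝ → ℝ) (κ : Fin 4 → ℝ) (β γ2 τ : ℝ) (A : Finset α) (r : α → ℝ) : ℝ :=
  H.cc τ * ∑ e ∈ A, φ (r e)
    + κ 0 * (H.cc τ / H.gg β τ) * H.Ups (H.aa τ) A r
    + κ 1 * (H.cc τ / H.gg β τ) * H.om (H.aa τ) A
    + κ 2 * (H.cc τ / H.gam τ ^ 7) * H.M4 (H.aa τ) A r
    + κ 3 * (H.gam τ * H.nrm τ) * H.UU (H.aa τ) A
    + 24 * κ 3 * (2 * γ2 - H.gam τ) * (H.nrm τ * (A.card : ℝ))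
    + H.Vabs γ2 τ A

/-- The cut-off for the cumulated degree deficit. -/
noncomputable def chi (M2 τ : ℝ) : ℝ := 1 / (1 + M2 * H.aa τ)

/-- The process (first component), a copy run with the moves `H'` only (second component),
the smooth part `r` of the degree deviation and the cumulated deficit `J`. -/
noncomputable def sys (H' : Finset (Finset α)) (δ M2 : ℝ) :
    Sys (Finset α × Finset α) ((α → ℝ) × (α → ℝ)) (Finset α) where
  moves := H.TT
  mv := fun T s => (if T ⊆ s.1 then s.1 \ T else s.1, if T ⊆ s.2 ∧ T ∈ H' then s.2 \ T else s.2)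
  rate := H.aa
  drift := fun τ s => (H.vel (H.aa τ) s.1,
    fun e => H.chi M2 τ * max (1 - δ - H.u (H.aa τ) s.1 e) 0)

/-- Both components stay inside the starting set. -/
def InvS (A1 : Finset α) (s : Finset α × Finset α) : Prop := s.1 ⊆ A1 ∧ s.2 ⊆ A1

/-- Expected value of `ψ` of the number of uncovered vertices after `k` greedy steps. -/
noncomputable def val (ψ : ℕ → ℝ) : ℕ → Finset α → ℝ
  | 0 => fun A => ψ A.card
  | k + 1 => fun A => if H.tri A = ∅ then ψ A.card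
      else (∑ T ∈ H.tri A, val ψ k (A \ T)) / ((H.tri A).card : ℝ)

/-- Expected value of `ψ` of the final number of uncovered vertices. -/
noncomputable def Hv (ψ : ℕ → ℝ) (A : Finset α) : ℝ := H.val ψ H.A0.card A

end HG

/-- Indicator that `S` lies in `A`. -/
noncomputable def ind {α : Type} [DecidableEq α] (S A : Finset α) : ℝ := if S ⊆ A then 1 else 0

end Vale.Agent.P046
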